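import Vale.Agent.P027M.TW.Defs

/-! # P027, route M: the coefficient rings `R[i, w]`, `i ^ 2 = -1`, `w ^ 2 = 3` -/

set_option linter.all false

noncomputable section

namespace Vale.Agent.P027M

open QuadraticAlgebra

/-- `R[i]` -/
abbrev G9 (R : Type) [CommRing R] : Type := QuadraticAlgebra R (-1) 0

/-- `R[i, w]` -/
abbrev QO (R : Type) [CommRing R] : Type := QuadraticAlgebra (G9 R) 3 0

section functor

variable {R S : Type} [CommRing R] [CommRing S]

/-- functoriality of quadratic algebras -/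
def qmap (f : R →+* S) (a : R) (a' : S) (h : f a = a') :
    QuadraticAlgebra R a 0 →+* QuadraticAlgebra S a' 0 where
  toFun z := ⟨f z.re, f z.im⟩
  map_one' := by ext <;> simp
  map_mul' z w := by ext <;> simp [h]
  map_zero' := by ext <;> simp
  map_add' z w := by ext <;> simp

def G9.map (f : R →+* S) : G9 R →+* G9 S := qmap f _ _ (by simp)

def QO.map (f : R →+* S) : QO R →+* QO S := qmap (G9.map f) _ _ (map_ofNat _ 3)

/-- the square root of `-1` -/
def iO : QO R := ⟨⟨0, 1⟩, 0⟩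

/-- the square root of `3` -/
def wO : QO R := ⟨0, 1⟩

theorem iO_sq : (iO : QO R) ^ 2 = -1 := by
  rw [sq]; ext <;> simp [iO]

theorem wO_sq : (wO : QO R) ^ 2 = 3 := by
  rw [sq]; ext <;> simp [wO]

theorem QO.map_iO (f : R →+* S) : QO.map f iO = iO := by
  ext <;> simp [QO.map, G9.map, qmap, iO]

theorem QO.map_wO (f : R →+* S) : QO.map f wO = wO := by
  ext <;> simp [QO.map, G9.map, qmap, wO]

theorem QO.map_alg (f : R →+* S) (a : R) :
    QO.map f (algebraMap R (QO R) a) = algebraMap S (QO S) (f a) := by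
  show QO.map f ⟨⟨a, 0⟩, 0⟩ = ⟨⟨f a, 0⟩, 0⟩
  ext <;> simp [QO.map, G9.map, qmap]

/-- coordinates -/
theorem QO.eq (z : QO R) :
    z = z.re.re • 1 + z.re.im • iO + z.im.re • wO + z.im.im • (iO * wO) := by
  ext <;> simp [iO, wO]

theorem QO.map_eq_zero (f : R →+* S) (z : QO R) : QO.map f z = 0 ↔
    f z.re.re = 0 ∧ f z.re.im = 0 ∧ f z.im.re = 0 ∧ f z.im.im = 0 := by
  constructor
  · intro h
    exact ⟨congrArg (·.re.re) h, congrArg (·.re.im) h, congrArg (·.im.re) h, congrArg (·.im.im) h⟩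
  · rintro ⟨h1, h2, h3, h4⟩
    ext <;> simpa [QO.map, G9.map, qmap]

theorem QO.map_inj {f : R →+* S} (hf : Function.Injective f) : Function.Injective (QO.map f) := by
  rw [injective_iff_map_eq_zero] at hf ⊢
  intro z hz
  obtain ⟨h1, h2, h3, h4⟩ := (QO.map_eq_zero f z).1 hz
  ext
  exacts [hf _ h1, hf _ h2, hf _ h3, hf _ h4]

theorem QO.map_surj {f : R →+* S} (hf : Function.Surjective f) :
    Function.Surjective (QO.map f) := by
  rintro ⟨⟨a, b⟩, ⟨c, d⟩⟩
  obtain ⟨a, rfl⟩ := hf a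
  obtain ⟨b, rfl⟩ := hf b
  obtain ⟨c, rfl⟩ := hf c
  obtain ⟨d, rfl⟩ := hf d
  exact ⟨⟨⟨a, b⟩, ⟨c, d⟩⟩, rfl⟩

theorem QO.alg_dvd {r : R} {z : QO R} : algebraMap R (QO R) r ∣ z ↔
    r ∣ z.re.re ∧ r ∣ z.re.im ∧ r ∣ z.im.re ∧ r ∣ z.im.im := by
  rw [IsScalarTower.algebraMap_apply R (G9 R) (QO R), algebraMap_dvd_iff, algebraMap_dvd_iff,
    algebraMap_dvd_iff, and_assoc]

/-- additive coordinates -/
def QO.coord (R : Type) [CommRing R] : QO R ≃ₗ[R] (Fin 4 → R) where
  toFun z := ![z.re.re, z.re.im, z.im.re, z.im.im]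
  invFun v := ⟨⟨v 0, v 1⟩, ⟨v 2, v 3⟩⟩
  map_add' z w := by ext i; fin_cases i <;> simp
  map_smul' c z := by ext i; fin_cases i <;> simp
  left_inv z := rfl
  right_inv v := by ext i; fin_cases i <;> simp

/-- the universal property -/
def QO.lift {A : Type*} [Ring A] [Algebra R A] (i w : A) (hi : i * i = -1) (hw : w * w = 3)
    (h : i * w = w * i) : QO R →ₐ[R] A where
  toFun z := z.re.re • 1 + z.re.im • i + z.im.re • w + z.im.im • (i * w)
  map_one' := by simp
  map_zero' := by simp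
  map_add' z y := by
    simp only [re_add, im_add, add_smul]
    abel
  commutes' a := by
    show a • (1 : A) + (0 : R) • i + (0 : R) • w + (0 : R) • (i * w) = _
    simp [Algebra.algebraMap_eq_smul_one]
  map_mul' z y := by
    have e1 : i * (i * w) = -w := by rw [← mul_assoc, hi]; simp
    have e2 : w * (i * w) = (3 : R) • i := by
      rw [← mul_assoc, ← h, mul_assoc, hw, ofNat_smul_eq_nsmul, nsmul_eq_mul']; simp
    have e3 : i * w * i = -w := by rw [mul_assoc, ← h, e1]
    have e4 : i * w * w = (3 : R) • i := by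
      rw [mul_assoc, hw, ofNat_smul_eq_nsmul, nsmul_eq_mul']; simp
    have e5 : i * w * (i * w) = -((3 : R) • 1) := by
      rw [← mul_assoc, e3, neg_mul, hw, ofNat_smul_eq_nsmul]; simp
    have e6 : w * w = (3 : R) • 1 := by rw [hw, ofNat_smul_eq_nsmul]; simp
    simp only [add_mul, mul_add, smul_mul_smul_comm, one_mul, mul_one, hi, e1, e2, e3, e4, e5, e6,
      ← h, re_mul, im_mul, re_add, im_add, re_ofNat, im_ofNat, re_zero, im_zero]
    module

theorem QO.lift_iO {A : Type*} [Ring A] [Algebra R A] (i w : A) (hi hw h) :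
    QO.lift (R := R) i w hi hw h iO = i := by simp [QO.lift, iO]

theorem QO.lift_wO {A : Type*} [Ring A] [Algebra R A] (i w : A) (hi hw h) :
    QO.lift (R := R) i w hi hw h wO = w := by simp [QO.lift, wO]

end functor

/-- the field with nine elements -/
abbrev k9 : Type := G9 (ZMod 3)

instance fact9 : Fact (∀ r : ZMod 3, r ^ 2 ≠ -1 + 0 * r) := ⟨by decide⟩

instance : Fact (Nat.Prime 3) := ⟨by norm_num⟩

instance : Field k9 := inferInstanceAs (Field (QuadraticAlgebra (ZMod 3) (-1) 0))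

instance : CharP k9 3 := charP_of_injective_algebraMap (R := ZMod 3) algebraMap_injective 3

/-- the square root of `-1` in `k9` -/
def i9 : k9 := ⟨0, 1⟩

theorem i9_sq : i9 ^ 2 = -1 := by rw [sq]; ext <;> simp [i9]

/-- reduction modulo `w` -/
def QO.res {R : Type} [CommRing R] (f : R →+* ZMod 3) : QO R →+* k9 where
  toFun z := G9.map f z.re
  map_one' := map_one _
  map_mul' z w := by
    have : G9.map f 3 = 0 := by rw [map_ofNat]; exact CharP.cast_eq_zero k9 3
    rw [re_mul, map_add, map_mul, map_mul, map_mul, this]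
    ring
  map_zero' := map_zero _
  map_add' z w := map_add _ _ _

theorem QO.res_iO {R : Type} [CommRing R] (f : R →+* ZMod 3) : QO.res f iO = i9 := by
  ext <;> simp [QO.res, G9.map, qmap, iO, i9]

theorem QO.res_wO {R : Type} [CommRing R] (f : R →+* ZMod 3) : QO.res f wO = 0 :=
  map_zero (G9.map f)

theorem QO.res_surj {R : Type} [CommRing R] {f : R →+* ZMod 3} (hf : Function.Surjective f) :
    Function.Surjective (QO.res f) := by
  rintro ⟨a, b⟩
  obtain ⟨a, rfl⟩ := hf a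
  obtain ⟨b, rfl⟩ := hf b
  exact ⟨⟨⟨a, b⟩, 0⟩, rfl⟩

theorem QO.res_eq_zero {R : Type} [CommRing R] {f : R →+* ZMod 3} (hf : ∀ a, f a = 0 → 3 ∣ a)
    (z : QO R) : QO.res f z = 0 ↔ wO ∣ z := by
  constructor
  · intro h
    obtain ⟨a, ha⟩ := hf _ (congrArg (·.re) h)
    obtain ⟨b, hb⟩ := hf _ (congrArg (·.im) h)
    refine ⟨⟨z.im, ⟨a, b⟩⟩, ?_⟩
    ext <;> simp [wO, ha, hb]
  · rintro ⟨y, rfl⟩
    rw [map_mul, QO.res_wO, zero_mul]

/-- the ring of integers of `ℚ₃(ζ₁₂)` -/
abbrev O3 : Type := QO ℤ_[3]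

/-- its quotient by `3 ^ j` -/
abbrev La (j : ℕ) : Type := QO (ZMod (3 ^ j))

def res3 : O3 →+* k9 := QO.res PadicInt.toZMod

def toLa (j : ℕ) : O3 →+* La j := QO.map (PadicInt.toZModPow j)

def resL (j : ℕ) : La (j + 1) →+* k9 := QO.res (ZMod.castHom (dvd_pow_self 3 j.succ_ne_zero) _)

/-- the global ring inside `O3` -/
def glob : QO ℤ →+* O3 := QO.map (Int.castRingHom _)

theorem glob_inj : Function.Injective glob := QO.map_inj Int.cast_injective

theorem res3_surj : Function.Surjective res3 := QO.res_surj (ZMod.ringHom_surjective _)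

theorem toLa_surj (j : ℕ) : Function.Surjective (toLa j) := QO.map_surj (ZMod.ringHom_surjective _)

theorem res3_eq_zero (z : O3) : res3 z = 0 ↔ wO ∣ z := QO.res_eq_zero (fun a ha => by
  have : a ∈ RingHom.ker (PadicInt.toZMod (p := 3)) := ha
  rw [PadicInt.ker_toZMod, PadicInt.maximalIdeal_eq_span_p, Ideal.mem_span_singleton] at this
  exact_mod_cast this) z

theorem toLa_eq_zero (j : ℕ) (z : O3) : toLa j z = 0 ↔ 3 ^ j ∣ z := by
  have e : ∀ a : ℤ_[3], PadicInt.toZModPow j a = 0 ↔ 3 ^ j ∣ a := fun a => by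
    rw [← RingHom.mem_ker, PadicInt.ker_toZModPow, Ideal.mem_span_singleton]
    rfl
  rw [toLa, QO.map_eq_zero, e, e, e, e, ← QO.alg_dvd, map_pow, map_ofNat]

theorem resL_toLa (j : ℕ) (z : O3) : resL j (toLa (j + 1) z) = res3 z := by
  have e : (ZMod.castHom (dvd_pow_self 3 j.succ_ne_zero) (ZMod 3)).comp
      (PadicInt.toZModPow (j + 1)) = PadicInt.toZMod := by
    refine ZMod.ringHom_eq_of_ker_eq _ _ ?_
    rw [PadicInt.ker_toZMod]
    refine ((IsLocalRing.maximalIdeal.isMaximal _).eq_of_le (RingHom.ker_ne_top _) ?_).symm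
    rw [PadicInt.maximalIdeal_eq_span_p, Ideal.span_singleton_le_iff_mem, RingHom.mem_ker,
      map_natCast]
    rfl
  ext
  · exact DFunLike.congr_fun e _
  · exact DFunLike.congr_fun e _

theorem isUnit_of_res3 {z : O3} (h : res3 z ≠ 0) : IsUnit z := by
  have u : ∀ a : ℤ_[3], PadicInt.toZMod a ≠ 0 → IsUnit a := fun a ha => by
    by_contra k
    apply ha
    rw [← RingHom.mem_ker, PadicInt.ker_toZMod]
    exact k
  rw [isUnit_iff_norm_isUnit, isUnit_iff_norm_isUnit]
  apply u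
  have e : ∀ y : G9 ℤ_[3], PadicInt.toZMod (norm y) = norm (G9.map PadicInt.toZMod y) := fun y => by
    simp [norm_def, G9.map, qmap]
  rw [e, Ne, norm_eq_zero_iff_eq_zero]
  have : G9.map (PadicInt.toZMod (p := 3)) 3 = 0 := by
    rw [map_ofNat]; exact CharP.cast_eq_zero k9 3
  rw [norm_def, map_sub, map_add, map_mul, map_mul, map_mul, map_mul, map_mul, this, map_zero]
  have h' : G9.map PadicInt.toZMod z.re ≠ 0 := h
  simpa using h'

theorem three_smul {z : O3} (h : 3 * z = 0) : z = 0 := by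
  have : (3 : ℤ_[3]) • z = 0 := by rw [Algebra.smul_def, map_ofNat, h]
  exact (smul_eq_zero.1 this).resolve_left (by norm_num)

theorem wO_mul {z : O3} (h : wO * z = 0) : z = 0 :=
  three_smul (by rw [← wO_sq, sq, mul_assoc, h, mul_zero])

theorem eq_zero_of_dvd {z : O3} (h : ∀ n : ℕ, 3 ^ n ∣ z) : z = 0 := by
  have e : ∀ a : ℤ_[3], (∀ n, PadicInt.toZModPow n a = 0) → a = 0 := fun a ha =>
    PadicInt.ext_of_toZModPow.1 fun n => by rw [ha, map_zero]
  have k := fun n => (QO.map_eq_zero _ z).1 ((toLa_eq_zero n z).2 (h n))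
  ext
  exacts [e _ fun n => (k n).1, e _ fun n => (k n).2.1, e _ fun n => (k n).2.2.1,
    e _ fun n => (k n).2.2.2]

/-- every nonzero element is a unit times a power of `w` -/
theorem exists_pow {z : O3} (h : z ≠ 0) : ∃ (n : ℕ) (u : O3), IsUnit u ∧ z = wO ^ n * u := by
  classical
  have ex : ∃ n : ℕ, ¬ wO ^ (n + 1) ∣ z := by
    by_contra k
    push Not at k
    refine h (eq_zero_of_dvd fun n => Dvd.dvd.trans ?_ (k (2 * n)))
    rw [← wO_sq, ← pow_mul]
    exact pow_dvd_pow _ (Nat.le_succ _)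
  have d : wO ^ Nat.find ex ∣ z := by
    rcases e : Nat.find ex with _ | m
    · simp
    · exact not_not.1 (Nat.find_min ex (by omega))
  obtain ⟨u, hu⟩ := d
  refine ⟨_, u, isUnit_of_res3 fun k => Nat.find_spec ex ?_, hu⟩
  obtain ⟨v, rfl⟩ := (res3_eq_zero u).1 k
  exact ⟨v, by rw [pow_succ, mul_assoc]; exact hu⟩

instance : NoZeroDivisors O3 := ⟨fun {a b} h => by
  by_contra k
  push Not at k
  obtain ⟨n, u, hu, rfl⟩ := exists_pow k.1
  have : ∀ (n : ℕ) (z : O3), wO ^ n * z = 0 → z = 0 := fun n => by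
    induction n with
    | zero => simp
    | succ n ih => exact fun z hz => wO_mul (ih _ (by rw [← hz]; ring))
  exact k.2 (hu.mul_right_eq_zero.1 (this n _ (by rw [← h]; ring)))⟩

instance : IsDomain O3 := NoZeroDivisors.to_isDomain _

theorem dvd_three_pow {z : O3} (h : z ≠ 0) : ∃ n : ℕ, z ∣ 3 ^ n := by
  obtain ⟨n, u, hu, rfl⟩ := exists_pow h
  refine ⟨n, hu.mul_right_dvd.2 ?_⟩
  rw [← wO_sq, ← pow_mul]
  exact pow_dvd_pow _ (by omega)

/-- roots of unity of order prime to `3` are determined by their residues -/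
theorem eq_of_pow_eq {x y : O3} {n : ℕ} (hn : ¬ 3 ∣ n) (hy : res3 y ≠ 0) (h : x ^ n = y ^ n)
    (hr : res3 x = res3 y) : x = y := by
  have k := (Commute.all x y).geom_sum₂_mul n
  rw [h, sub_self] at k
  refine sub_eq_zero.1 ((mul_eq_zero.1 k).resolve_left fun k0 => ?_)
  have := congrArg res3 k0
  simp only [map_sum, map_mul, map_pow, hr, map_zero] at this
  rw [Finset.sum_congr rfl (g := fun _ => res3 y ^ (n - 1)) fun i hi => by
    rw [← pow_add]; congr 1; have := Finset.mem_range.1 hi; omega] at this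
  simp only [Finset.sum_const, Finset.card_range, nsmul_eq_mul, mul_eq_zero] at this
  rcases this with k1 | k1
  · exact hn ((CharP.cast_eq_zero_iff k9 3 n).1 k1)
  · exact pow_ne_zero _ hy k1

theorem La_three (j : ℕ) : (3 : La j) ^ j = 0 := by
  have := (toLa_eq_zero j (3 ^ j)).2 dvd_rfl
  rwa [map_pow, map_ofNat] at this

/-- additive coordinates on `La j` -/
def La_equiv (j : ℕ) : La j ≃+ (Fin 4 → ZMod (3 ^ j)) := (QO.coord _).toAddEquiv

instance (j : ℕ) : Finite (La j) := Finite.of_equiv _ (La_equiv j).symm.toEquiv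

theorem coef (j : ℕ) : TW.Coef (resL j) (j + 1) where
  surj := fun y => by
    obtain ⟨z, rfl⟩ := res3_surj y
    exact ⟨_, resL_toLa j z⟩
  nil := fun a ha => by
    obtain ⟨z, rfl⟩ := toLa_surj _ a
    rw [resL_toLa, res3_eq_zero] at ha
    obtain ⟨v, rfl⟩ := ha
    refine ⟨2 * (j + 1), ?_⟩
    rw [← map_pow, toLa_eq_zero, mul_pow, pow_mul, wO_sq]
    exact dvd_mul_right _ _
  three := La_three _
  fin := inferInstance

end Vale.Agent.P027M
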