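import Mathlib

/-! # P027, route M: the global definitions (target, admissible parameters, eigenvalue systems) -/

namespace Vale.Agent.P027M

/-- the standard parameter; `7 ^ 2 * 19 ^ 2 = 17689, 17209, 16729, 16249` is a progression with
difference `-480`, the last three terms are primes `≡ 1 mod 8` -/
def g0 : ℚ := 17689 / 16729

/-- the visible primes of `g` -/
def visSet (g : ℚ) : Finset ℕ :=
  ((g.num * (g + 1).num * (g - 3).num).natAbs * g.den).primeFactors.filter fun p => 3 < p ∧
    ¬ ((4 : ℤ) ∣ padicValRat p g ∧ (4 : ℤ) ∣ padicValRat p (g + 1) ∧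
      (4 : ℤ) ∣ padicValRat p (g - 3))

/-- the product of the visible primes -/
def Vis (g : ℚ) : ℕ := ∏ p ∈ visSet g, p

/-- admissible parameters: `g ≡ g0` modulo `W` (at the primes of `W`), `g` close to `g0` in `ℝ`,
all visible primes are `1 mod 8`, except the two auxiliary primes `7, 19` -/
structure Adm (W : ℕ) (δ : ℚ) (g : ℚ) : Prop where
  real : |g - g0| < δ
  loc : ∃ u : ℚ, g = g0 + W * u ∧ u.den.Coprime W
  vis : ∀ p ∈ visSet g, p % 8 = 1 ∨ p = 7 ∨ p = 19

/-- **the target**: the height inequality -/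
def HT : Prop := ∃ (W : ℕ) (δ : ℚ) (κ : ℕ) (C : ℝ), 0 < W ∧ 0 < δ ∧ ∀ g : ℚ, Adm W δ g →
  Real.log (max g.num.natAbs g.den : ℕ) ≤ C * (Vis g : ℝ) ^ κ

/-- the standard modulus and radius of the blocks (all blocks may assume `Std g`) -/
def W0 : ℕ := 2 ^ 12 * 3 ^ 4 * 5 ^ 2 * 7 ^ 3 * 11 * 13 * 19 ^ 3 * 23

/-- `g` is admissible for the standard modulus and radius -/
def Std (g : ℚ) : Prop := Adm W0 (1 / 1000) g

/-! ### the constants of the family -/

section
variable {k : Type*} [Field k]

def c3 (g : k) : k := g * (3 - g) / (g + 1)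
def d1 (g : k) : k := (3 - g) * (g + 1) / 4
def d2 (g : k) : k := 4 * g / (g + 1) ^ 2
def b1 (g : k) : k := (3 - g) ^ 3 / (4 * (g + 1))
def b2 (g : k) : k := 4 * g ^ 3 / (g + 1) ^ 2

end

/-! ### eigenvalue systems -/

/-- a Gaussian integer in a ring with a square root `i` of `-1` -/
def gi {R : Type*} [CommRing R] (i : R) (z : GaussianInt) : R := z.re + z.im * i

/-- level, character and traces -/
structure Sys where
  /-- the level `2 ^ 16 * 7 ^ 2 * 19 ^ 2 * (product of visible primes ≡ 1 mod 8)` -/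
  N : ℕ
  /-- the character, with values in the fourth roots of unity (on units) -/
  eps : ZMod N →* GaussianInt
  /-- `a_p = b_p` for `p ≡ 1 mod 4`, `a_p = √3 b_p` for `p ≡ 3 mod 4` -/
  b : ℕ → GaussianInt

/-- the trace `a_p` in a ring with `i ^ 2 = -1`, `w ^ 2 = 3` -/
def Sys.a (S : Sys) {R : Type*} [CommRing R] (i w : R) (p : ℕ) : R :=
  if p % 4 = 1 then gi i (S.b p) else w * gi i (S.b p)

/-- the character value `ε(p)` -/
def Sys.e (S : Sys) {R : Type*} [CommRing R] (i : R) (p : ℕ) : R := gi i (S.eps p)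

/-- the good primes of the system for the parameter `g` : all blocks use this set for `T_l` -/
def GoodP (N : ℕ) (l : ℕ) : Prop := l.Prime ∧ ¬ l ∣ 6 * N

end Vale.Agent.P027M
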